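import Mathlib.LinearAlgebra.QuadraticForm.Dual
import Mathlib.LinearAlgebra.Matrix.BilinearForm
import Mathlib.LinearAlgebra.Matrix.DotProduct
import Mathlib.LinearAlgebra.Matrix.ToLinearEquiv
import Mathlib.LinearAlgebra.Matrix.Adjugate
import Mathlib.Data.Set.Finite.Lemmas
import Vale.Agent.P183CH.IF

/-!
P092, group side (helper87): a finite set of characters of a lattice of cocharacters which is stable
under orthogonal reflections is a root system; simple roots, Cartan matrix, fundamental coweights.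
-/

set_option linter.all false

open Matrix Finset

namespace Vale.Agent.P092RT

open P183CH

variable {n : ℕ} {Yl : AddSubgroup (Fin n → ℤ)} {Φ : Set (Yl →+ ℤ)}

/-- the reflection in `a` is induced by a permutation of the coordinates -/
def Refl (Φ : Set (Yl →+ ℤ)) (a : Yl →+ ℤ) : Prop :=
  ∃ (σ : Equiv.Perm (Fin n)) (h : ∀ y ∈ Yl, y ∘ σ ∈ Yl),
    (∀ y : Yl, a y = 0 → y.1 ∘ σ = y.1) ∧ (∀ y : Yl, a ⟨y.1 ∘ σ, h y.1 y.2⟩ = - a y) ∧
    (∀ c ∈ Φ, ∃ c2 ∈ Φ, ∀ y : Yl, c2 y = c ⟨y.1 ∘ σ, h y.1 y.2⟩) ∧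
    (∀ j, ∃ m : ℤ, ∀ y : Yl, y.1 (σ j) - y.1 j = m * a y) ∧
    (∀ c ∈ Φ, ∃ m : ℤ, ∀ y : Yl, c ⟨y.1 ∘ σ, h y.1 y.2⟩ - c y = m * a y)

theorem exists_reg (S : Set (Yl →+ ℤ)) (hS : S.Finite) (h0 : (0 : Yl →+ ℤ) ∉ S) :
    ∃ y : Yl, ∀ a ∈ S, a y ≠ 0 := by
  induction S, hS using Set.Finite.induction_on with
  | empty => exact ⟨0, fun a ha => ha.elim⟩
  | @insert c S hc hS ih =>
    obtain ⟨y, hy⟩ := ih fun h => h0 (Set.mem_insert_of_mem _ h)
    by_cases hcy : c y = 0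
    swap
    · exact ⟨y, fun a ha => by rcases ha with rfl | ha; exacts [hcy, hy a ha]⟩
    obtain ⟨y1, h1⟩ : ∃ y1, c y1 ≠ 0 := by
      by_contra h
      push Not at h
      have : c = 0 := AddMonoidHom.ext h
      exact h0 (this ▸ Set.mem_insert _ _)
    obtain ⟨M, hM⟩ := (hS.image fun a => |a y1|).bddAbove
    refine ⟨(|M| + 1) • y + y1, fun a ha => ?_⟩
    rw [map_add, map_zsmul, smul_eq_mul]
    rcases ha with rfl | ha
    · rw [hcy]; simpa using h1
    · have h2 : |a y1| ≤ M := hM ⟨a, ha, rfl⟩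
      have h3 := hy a ha
      have h4 := le_abs_self M
      have h5 := abs_nonneg M
      intro e
      have h6 := abs_le.1 h2
      rcases lt_or_gt_of_ne h3 with h7 | h7 <;> nlinarith

/-- chosen reflections, Cartan integers and a regular cocharacter -/
structure Dat (Φ : Set (Yl →+ ℤ)) where
  fin : Φ.Finite
  y0 : Yl
  reg : ∀ a ∈ Φ, a y0 ≠ 0
  u : (Yl →+ ℤ) → Fin n → ℤ
  s : (Yl →+ ℤ) → Yl → Yl
  N : (Yl →+ ℤ) → (Yl →+ ℤ) → ℤ
  hs : ∀ a ∈ Φ, ∀ y, (s a y : Fin n → ℤ) = y - a y • u a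
  hN : ∀ a ∈ Φ, ∀ c ∈ Φ, ∀ y, c (s a y) = c y - N c a * a y
  mem : ∀ a ∈ Φ, ∀ c ∈ Φ, c - N c a • a ∈ Φ
  two : ∀ a ∈ Φ, N a a = 2
  orth : ∀ a ∈ Φ, ∀ y y' : Yl, (s a y).1 ⬝ᵥ (s a y').1 = y.1 ⬝ᵥ y'.1

theorem exists_dat (hf : Φ.Finite) (h0 : (0 : Yl →+ ℤ) ∉ Φ) (hr : ∀ a ∈ Φ, Refl Φ a) :
    Nonempty (Dat Φ) := by
  classical
  obtain ⟨y0, hy0⟩ := exists_reg Φ hf h0
  have key : ∀ a : Yl →+ ℤ, ∃ (u : Fin n → ℤ) (s : Yl → Yl) (N : (Yl →+ ℤ) → ℤ), a ∈ Φ →
      (∀ y, (s y : Fin n → ℤ) = y - a y • u) ∧ (∀ c ∈ Φ, ∀ y, c (s y) = c y - N c * a y) ∧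
      (∀ c ∈ Φ, c - N c • a ∈ Φ) ∧ N a = 2 ∧ ∀ y y' : Yl, (s y).1 ⬝ᵥ (s y').1 = y.1 ⬝ᵥ y'.1 := by
    intro a
    by_cases ha : a ∈ Φ
    swap
    · exact ⟨0, id, 0, fun h => (ha h).elim⟩
    obtain ⟨σ, h, -, h2, h3, h4, h5⟩ := hr a ha
    choose m hm using h4
    choose! N hN using h5
    refine ⟨-m, fun y => ⟨y.1 ∘ σ, h y.1 y.2⟩, fun c => -N c, fun _ => ⟨fun y => ?_, fun c hc y => ?_,
      fun c hc => ?_, ?_, fun y y' => comp_equiv_dotProduct_comp_equiv _ _ σ⟩⟩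
    · funext j
      have := hm j y
      simp only [Function.comp_apply, Pi.sub_apply, Pi.smul_apply, Pi.neg_apply, smul_eq_mul]
      linarith
    · have := hN c hc y; linarith
    · obtain ⟨c2, hc2, e⟩ := h3 c hc
      have : c - (-N c) • a = c2 := by
        ext y
        have := hN c hc y
        simp only [AddMonoidHom.sub_apply, AddMonoidHom.smul_apply, smul_eq_mul, e y]
        linarith
      exact this ▸ hc2
    · have e1 := hN a ha y0
      rw [h2] at e1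
      have : (N a + 2) * a y0 = 0 := by linarith
      rcases mul_eq_zero.1 this with e | e
      · show -N a = 2
        linarith
      · exact (hy0 a ha e).elim
  choose u s N H using key
  exact ⟨⟨hf, y0, hy0, u, s, fun c a => N a c, fun a ha => (H a ha).1, fun a ha => (H a ha).2.1,
    fun a ha => (H a ha).2.2.1, fun a ha => (H a ha).2.2.2.1, fun a ha => (H a ha).2.2.2.2⟩⟩

theorem dot_nonneg (v : Fin n → ℤ) : 0 ≤ v ⬝ᵥ v := Finset.sum_nonneg fun i _ => mul_self_nonneg _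

namespace Dat

variable (D : Dat Φ) {a c : Yl →+ ℤ}

/-- a multiple of the coroot -/
def k (a : Yl →+ ℤ) : Yl := D.y0 - D.s a D.y0

theorem k_val (ha : a ∈ Φ) : (D.k a : Fin n → ℤ) = a D.y0 • D.u a := by
  rw [k, AddSubgroup.coe_sub, D.hs a ha, sub_sub_cancel]

theorem ap_k (ha : a ∈ Φ) (hc : c ∈ Φ) : c (D.k a) = D.N c a * a D.y0 := by
  rw [k, map_sub, D.hN a ha c hc, sub_sub_cancel]

include D in
theorem neg_mem (ha : a ∈ Φ) : -a ∈ Φ := by
  have := D.mem a ha a ha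
  rw [D.two a ha] at this
  have e : a - (2 : ℤ) • a = -a := by rw [two_smul]; abel
  exact e ▸ this

theorem dot (ha : a ∈ Φ) (y : Yl) : 2 * (y.1 ⬝ᵥ D.u a) = a y * (D.u a ⬝ᵥ D.u a) := by
  have h1 := D.orth a ha D.y0 D.y0
  have h2 := D.orth a ha y D.y0
  rw [D.hs a ha] at h1
  rw [D.hs a ha, D.hs a ha] at h2
  simp only [sub_dotProduct, dotProduct_sub, smul_dotProduct, dotProduct_smul, smul_eq_mul] at h1 h2
  rw [dotProduct_comm (D.u a) D.y0.1] at h1 h2
  have h0 := D.reg a ha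
  have h3 : 2 * (D.y0.1 ⬝ᵥ D.u a) = a D.y0 * (D.u a ⬝ᵥ D.u a) :=
    mul_left_cancel₀ h0 (by linarith)
  refine mul_left_cancel₀ h0 ?_
  linear_combination (-2) * h2 - a y * h3

theorem upos (ha : a ∈ Φ) : 0 < D.u a ⬝ᵥ D.u a := by
  refine (dot_nonneg _).lt_of_ne fun e => ?_
  have h1 := dotProduct_self_eq_zero.1 e.symm
  have h2 : D.k a = 0 := Subtype.ext (by rw [D.k_val ha, h1, smul_zero]; rfl)
  have h3 := D.ap_k ha ha
  rw [h2, map_zero, D.two a ha] at h3
  exact D.reg a ha (by linarith)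

theorem key (ha : a ∈ Φ) (hc : c ∈ Φ) : 2 * (D.u a ⬝ᵥ D.u c) = D.N c a * (D.u c ⬝ᵥ D.u c) := by
  have h := D.dot hc (D.k a)
  rw [D.k_val ha, D.ap_k ha hc, smul_dotProduct, smul_eq_mul] at h
  exact mul_left_cancel₀ (D.reg a ha) (by linarith)

theorem N_pos (ha : a ∈ Φ) (hc : c ∈ Φ) (h : 0 < D.N c a) : 0 < D.N a c := by
  have h1 := D.key ha hc
  have h2 := D.key hc ha
  rw [dotProduct_comm] at h2
  have h3 := D.upos ha
  have h4 := mul_pos h (D.upos hc)
  by_contra h5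
  push Not at h5
  nlinarith

theorem N_zero (ha : a ∈ Φ) (hc : c ∈ Φ) (h : D.N c a = 0) : D.N a c = 0 := by
  have h1 := D.key ha hc
  have h2 := D.key hc ha
  rw [dotProduct_comm] at h2
  rw [h, zero_mul] at h1
  rw [h1] at h2
  exact (mul_eq_zero.1 h2.symm).resolve_right (D.upos ha).ne'

theorem prop (ha : a ∈ Φ) (hc : c ∈ Φ) (h : 4 ≤ D.N c a * D.N a c) :
    (2 : ℤ) • c = D.N c a • a := by
  have h1 := D.key ha hc
  have h2 := D.key hc ha
  rw [dotProduct_comm] at h2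
  have h3 := D.upos ha
  have h4 := D.upos hc
  set A := D.u a ⬝ᵥ D.u a with hA
  set C := D.u c ⬝ᵥ D.u c with hC
  set B := D.u a ⬝ᵥ D.u c with hB
  have hw : (A • D.u c - B • D.u a) ⬝ᵥ (A • D.u c - B • D.u a) = A * (A * C - B * B) := by
    simp only [sub_dotProduct, dotProduct_sub, smul_dotProduct, dotProduct_smul, smul_eq_mul]
    rw [dotProduct_comm (D.u c) (D.u a), ← hA, ← hB, ← hC]; ring
  have h5 : A * C - B * B ≤ 0 := by
    have : (2 * B) * (2 * B) = (D.N c a * D.N a c) * (A * C) := by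
      calc (2 * B) * (2 * B) = (D.N c a * C) * (D.N a c * A) := by rw [← h1, ← h2]
        _ = _ := by ring
    nlinarith [mul_pos h3 h4]
  have h6 : A • D.u c - B • D.u a = 0 :=
    dotProduct_self_eq_zero.1 (le_antisymm (hw ▸ mul_nonpos_of_nonneg_of_nonpos h3.le h5) (dot_nonneg _))
  ext y
  have h7 : y.1 ⬝ᵥ (A • D.u c - B • D.u a) = 0 := by rw [h6, dotProduct_zero]
  simp only [dotProduct_sub, dotProduct_smul, smul_eq_mul] at h7
  have h8 := D.dot ha y
  have h9 := D.dot hc y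
  rw [← hA] at h8
  rw [← hC] at h9
  simp only [AddMonoidHom.smul_apply, smul_eq_mul]
  refine mul_left_cancel₀ (mul_pos h3 h4).ne' ?_
  linear_combination 4 * h7 - 2 * A * h9 + 2 * B * h8 + A * a y * h1

end Dat

/-- the roots which are not divisible -/
def Nd (Φ : Set (Yl →+ ℤ)) : Set (Yl →+ ℤ) := {a | a ∈ Φ ∧ ∀ e ∈ Φ, a ≠ (2 : ℤ) • e}

namespace Dat

variable (D : Dat Φ) {a c : Yl →+ ℤ}

theorem nd_refl (ha : a ∈ Φ) (hc : c ∈ Nd Φ) : c - D.N c a • a ∈ Nd Φ := by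
  refine ⟨D.mem a ha c hc.1, fun e he h => hc.2 _ (D.mem a ha e he) ?_⟩
  have h1 := congrArg (fun f : Yl →+ ℤ => f (D.k a)) h
  simp only [AddMonoidHom.sub_apply, AddMonoidHom.smul_apply, smul_eq_mul, D.ap_k ha hc.1,
    D.ap_k ha ha, D.ap_k ha he, D.two a ha] at h1
  have h2 : D.N c a = -(2 * D.N e a) := mul_right_cancel₀ (D.reg a ha) (by linarith)
  rw [smul_sub, ← h, h2, smul_smul, neg_smul]; abel

include D in
theorem nd_neg (ha : a ∈ Nd Φ) : -a ∈ Nd Φ :=
  ⟨D.neg_mem ha.1, fun e he h => ha.2 _ (D.neg_mem he) (by rw [smul_neg, ← h, neg_neg])⟩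

include D in
theorem nd_red (ha : a ∈ Nd Φ) {m : ℤ} (hm : m • a ∈ Nd Φ) : m = 1 ∨ m = -1 := by
  have h1 := D.ap_k hm.1 hm.1
  have h2 := D.ap_k hm.1 ha.1
  rw [D.two _ hm.1, AddMonoidHom.smul_apply, h2, smul_eq_mul] at h1
  have h3 : m * D.N a (m • a) = 2 := mul_right_cancel₀ (D.reg _ hm.1) (by linarith)
  have h4 : m ∣ 2 := ⟨_, h3.symm⟩
  have h5 : |m| ≤ 2 := Int.le_of_dvd (by norm_num) ((abs_dvd _ _).2 h4)
  have h6 := abs_le.1 h5
  have h7 : m ≠ 0 := by rintro rfl; simp at h3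
  have h8 : m ≠ 2 := by rintro rfl; exact hm.2 a ha.1 rfl
  have h9 : m ≠ -2 := by
    rintro rfl
    exact hm.2 _ (D.neg_mem ha.1) (by rw [smul_neg, neg_smul])
  omega

include D in
theorem exists_nd (hc : c ∈ Φ) : ∃ d ∈ Nd Φ, ∃ m : ℕ, 0 < m ∧ c = (m : ℤ) • d := by
  generalize hh : (c D.y0).natAbs = h
  induction h using Nat.strong_induction_on generalizing c with
  | _ h ih =>
    by_cases hn : c ∈ Nd Φ
    · exact ⟨c, hn, 1, one_pos, by simp⟩
    have : ∃ e ∈ Φ, c = (2 : ℤ) • e := by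
      by_contra h'
      push Not at h'
      exact hn ⟨hc, h'⟩
    obtain ⟨e, he, rfl⟩ := this
    have h1 := D.reg e he
    obtain ⟨d, hd, m, hm, rfl⟩ := ih (e D.y0).natAbs (by
      rw [← hh, AddMonoidHom.smul_apply, smul_eq_mul]; omega) he rfl
    exact ⟨d, hd, 2 * m, by omega, by rw [smul_smul]; push_cast; rfl⟩

theorem sub_mem (ha : a ∈ Nd Φ) (hc : c ∈ Nd Φ) (hne : c ≠ a) (h : 0 < D.N c a) : c - a ∈ Nd Φ := by
  have h' := D.N_pos ha.1 hc.1 h
  by_cases h1 : D.N c a = 1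
  · have := D.nd_refl ha.1 hc
    rwa [h1, one_smul] at this
  by_cases h2 : D.N a c = 1
  · have := D.nd_neg (D.nd_refl hc.1 ha)
    rwa [h2, one_smul, neg_sub] at this
  have h3 : 4 ≤ D.N c a * D.N a c := by nlinarith [show 2 ≤ D.N c a by omega, show 2 ≤ D.N a c by omega]
  have h4 := D.prop ha.1 hc.1 h3
  have h5 := D.prop hc.1 ha.1 (by rwa [mul_comm])
  have h6 := congrArg (fun f : Yl →+ ℤ => f D.y0) h4
  have h7 := congrArg (fun f : Yl →+ ℤ => f D.y0) h5
  simp only [AddMonoidHom.smul_apply, smul_eq_mul] at h6 h7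
  have h8 : D.N c a * D.N a c = 4 := mul_right_cancel₀ (D.reg c hc.1) (by
    linear_combination (-D.N c a) * h7 - 2 * h6)
  have h9 : D.N c a = 2 := by nlinarith [show 2 ≤ D.N c a by omega, show 2 ≤ D.N a c by omega]
  rw [h9] at h4
  exfalso
  refine hne (AddMonoidHom.ext fun y => ?_)
  have := congrArg (fun f : Yl →+ ℤ => f y) h4
  simp only [AddMonoidHom.smul_apply, smul_eq_mul] at this
  linarith

/-- the simple roots -/
def Δ : Set (Yl →+ ℤ) := {a | a ∈ Nd Φ ∧ 0 < a D.y0 ∧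
  ∀ c ∈ Nd Φ, ∀ e ∈ Nd Φ, 0 < c D.y0 → 0 < e D.y0 → a ≠ c + e}

theorem Δ_fin : D.Δ.Finite := D.fin.subset fun a ha => ha.1.1

theorem N_nonpos (ha : a ∈ D.Δ) (hc : c ∈ D.Δ) (hne : c ≠ a) : D.N c a ≤ 0 := by
  by_contra h
  push Not at h
  have h1 := D.sub_mem ha.1 hc.1 hne h
  rcases lt_or_gt_of_ne (D.reg _ h1.1) with h2 | h2
  · exact ha.2.2 _ (D.nd_neg h1) c hc.1 (by rw [AddMonoidHom.neg_apply]; linarith) hc.2.1 (by abel)
  · exact hc.2.2 _ h1 a ha.1 h2 ha.2.1 (by abel)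

section Base

variable {r : ℕ} (α : Fin r → (Yl →+ ℤ)) (hi : Function.Injective α) (hα : Set.range α = D.Δ)

/-- the character with given coordinates -/
def L (α : Fin r → (Yl →+ ℤ)) (d : Fin r → ℤ) : Yl →+ ℤ := ∑ i, d i • α i

theorem L_apply (d : Fin r → ℤ) (y : Yl) : L α d y = ∑ i, d i * α i y := by
  simp [L, AddMonoidHom.finset_sum_apply]

theorem L_add (d e : Fin r → ℤ) : L α (d + e) = L α d + L α e := by
  simp [L, add_smul, Finset.sum_add_distrib]

theorem L_smul (m : ℤ) (d : Fin r → ℤ) : L α (m • d) = m • L α d := by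
  simp [L, Finset.smul_sum, smul_smul]

theorem L_neg (d : Fin r → ℤ) : L α (-d) = -L α d := by
  simp [L, Finset.sum_neg_distrib]

theorem L_single (i : Fin r) : L α (Pi.single i 1) = α i := by
  classical
  rw [L, Finset.sum_eq_single i]
  · simp
  · intro j _ hj; simp [Pi.single_eq_of_ne hj]
  · simp

/-- the Cartan matrix -/
def A (α : Fin r → (Yl →+ ℤ)) : Matrix (Fin r) (Fin r) ℤ := fun i j => D.N (α i) (α j)

include hα in
theorem α_mem (i : Fin r) : α i ∈ D.Δ := hα ▸ Set.mem_range_self i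

include hα in
theorem pos_gen (hc : c ∈ Nd Φ) (h : 0 < c D.y0) : ∃ d : Fin r → ℤ, 0 ≤ d ∧ c = L α d := by
  classical
  generalize hh : (c D.y0).natAbs = m
  induction m using Nat.strong_induction_on generalizing c with
  | _ m ih =>
    by_cases hs : c ∈ D.Δ
    · obtain ⟨i, rfl⟩ : c ∈ Set.range α := hα ▸ hs
      exact ⟨Pi.single i 1, Pi.single_nonneg.2 zero_le_one, (L_single α i).symm⟩
    have : ∃ c1 ∈ Nd Φ, ∃ c2 ∈ Nd Φ, 0 < c1 D.y0 ∧ 0 < c2 D.y0 ∧ c = c1 + c2 := by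
      by_contra h'
      push Not at h'
      exact hs ⟨hc, h, h'⟩
    obtain ⟨c1, h1, c2, h2, p1, p2, rfl⟩ := this
    rw [AddMonoidHom.add_apply] at hh
    obtain ⟨d1, e1, f1⟩ := ih _ (by omega) h1 p1 rfl
    obtain ⟨d2, e2, f2⟩ := ih _ (by omega) h2 p2 rfl
    exact ⟨d1 + d2, add_nonneg e1 e2, by rw [L_add, ← f1, ← f2]⟩

include hα in
theorem gen (hc : c ∈ Nd Φ) : ∃ d : Fin r → ℤ, (0 ≤ d ∨ d ≤ 0) ∧ c = L α d := by
  rcases lt_or_gt_of_ne (D.reg c hc.1) with h | h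
  · obtain ⟨d, hd, e⟩ := D.pos_gen α hα (D.nd_neg hc) (by rw [AddMonoidHom.neg_apply]; linarith)
    exact ⟨-d, Or.inr (neg_nonpos.2 hd), by rw [L_neg, ← e, neg_neg]⟩
  · obtain ⟨d, hd, e⟩ := D.pos_gen α hα hc h
    exact ⟨d, Or.inl hd, e⟩

include hi hα in
theorem det_ne : (D.A α).det ≠ 0 := by
  classical
  have hm := fun i => D.α_mem α hα i
  have hli : LinearIndependent ℤ fun i => D.u (α i) := by
    refine LinearMap.BilinForm.linearIndependent_of_pairwise_le_zero (Matrix.toBilin' 1) ?_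
      (Matrix.toBilin' 1 D.y0.1) _ (fun i => ?_) (fun i j hij => ?_)
    · intro x hx
      rw [LinearMap.BilinMap.toQuadraticMap_apply, Matrix.toBilin'_apply', one_mulVec]
      exact (dot_nonneg x).lt_of_ne fun e => hx (dotProduct_self_eq_zero.1 e.symm)
    · rw [Matrix.toBilin'_apply', one_mulVec]
      have := D.dot (hm i).1.1 D.y0
      have h2 := mul_pos (hm i).2.1 (D.upos (hm i).1.1)
      linarith
    · show Matrix.toBilin' 1 _ _ ≤ 0
      rw [Matrix.toBilin'_apply', one_mulVec]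
      have := D.key (hm i).1.1 (hm j).1.1
      have h2 := mul_nonpos_of_nonpos_of_nonneg (D.N_nonpos (hm i) (hm j) (hi.ne hij.symm))
        (D.upos (hm j).1.1).le
      linarith
  intro h
  obtain ⟨x, hx, e⟩ := exists_mulVec_eq_zero_iff.2 h
  have h1 : ∀ j, (∑ i, x i • D.u (α i)) ⬝ᵥ D.u (α j) = 0 := fun j => by
    have h2 := congrFun e j
    simp only [mulVec, dotProduct, A, Pi.zero_apply] at h2
    have h3 : 2 * ((∑ i, x i • D.u (α i)) ⬝ᵥ D.u (α j)) =
        (∑ i, D.N (α j) (α i) * x i) * (D.u (α j) ⬝ᵥ D.u (α j)) := by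
      rw [sum_dotProduct, Finset.mul_sum, Finset.sum_mul]
      refine Finset.sum_congr rfl fun i _ => ?_
      rw [smul_dotProduct, smul_eq_mul]
      linear_combination x i * D.key (hm i).1.1 (hm j).1.1
    rw [h2, zero_mul] at h3
    linarith
  have h4 : (∑ i, x i • D.u (α i)) = 0 := by
    refine dotProduct_self_eq_zero.1 ?_
    conv_lhs => rw [dotProduct_sum]
    exact Finset.sum_eq_zero fun j _ => by rw [dotProduct_smul, h1 j, smul_zero]
  exact hx (funext fun i => Fintype.linearIndependent_iff.1 hli x h4 i)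

include hi hα in
theorem exists_om : ∃ (N : ℕ) (om : Fin r → Yl), 0 < N ∧
    ∀ i j, α i (om j) = if i = j then (N : ℤ) else 0 := by
  classical
  have hm := fun i => D.α_mem α hα i
  set M : Matrix (Fin r) (Fin r) ℤ := D.A α * diagonal fun i => α i D.y0 with hM
  have hd : M.det ≠ 0 := by
    rw [hM, det_mul, det_diagonal]
    exact mul_ne_zero (D.det_ne α hi hα) (Finset.prod_ne_zero_iff.2 fun i _ => (hm i).2.1.ne')
  refine ⟨M.det.natAbs ^ 2, fun j => ∑ l, (M.det * M.adjugate l j) • D.k (α l),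
    pow_pos (Int.natAbs_pos.2 hd) 2, fun i j => ?_⟩
  have h1 := congrFun (congrFun (mul_adjugate M) i) j
  rw [mul_apply, Matrix.smul_apply, one_apply] at h1
  have h2 : α i (∑ l, (M.det * M.adjugate l j) • D.k (α l)) = M.det * ∑ l, M i l * M.adjugate l j := by
    rw [map_sum, Finset.mul_sum]
    refine Finset.sum_congr rfl fun l _ => ?_
    rw [map_zsmul, D.ap_k (hm l).1.1 (hm i).1.1, smul_eq_mul]
    have : M i l = D.N (α i) (α l) * α l D.y0 := by rw [hM, mul_diagonal]; rfl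
    rw [this]; ring
  show α i (∑ l, (M.det * M.adjugate l j) • D.k (α l)) = _
  rw [h2, h1]
  split_ifs
  · push_cast; rw [sq_abs]; simp [sq]
  · simp

end Base

end Dat

/-- the root system in the coordinates given by the simple roots -/
theorem root (hY : Yl ≠ ⊥) (hf : Φ.Finite) (h0 : (0 : Yl →+ ℤ) ∉ Φ) (hr : ∀ a ∈ Φ, Refl Φ a)
    (hirr : ∀ y1 y2 : Yl, (∀ a ∈ Φ, a y1 = 0 ∨ a y2 = 0) → y1 = 0 ∨ y2 = 0) :
    ∃ (R : RS) (N : ℕ) (om : Fin R.r → Yl), 0 < N ∧ R.Ok ∧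
      (∀ c : Yl →+ ℤ, (∀ j, c (om j) = 0) → c = 0) ∧
      (∀ c ∈ Φ, ∃ d ∈ R.Φ, ∃ m : ℕ, 0 < m ∧ (fun j => c (om j)) = (N * m) • d) ∧
      (∀ d ∈ R.Φ, ∃ c ∈ Φ, (fun j => c (om j)) = N • d) ∧
      (∀ i (σ : Equiv.Perm (Fin n)) (h : ∀ y ∈ Yl, y ∘ σ ∈ Yl),
        (∀ y : Yl, (∀ a ∈ Φ, (fun j => a (om j)) = N • R.α i → a y = 0) → y.1 ∘ σ = y.1) →
        (∀ a ∈ Φ, (fun j => a (om j)) = N • R.α i → ∀ y : Yl, a ⟨y.1 ∘ σ, h y.1 y.2⟩ = - a y) →
        ∀ b, (fun j => (om j).1 (σ b)) = R.s i fun j => (om j).1 b) ∧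
      ∀ y : Yl, ∃ c : Fin R.r → ℤ, N • y = ∑ j, c j • om j := by
  classical
  obtain ⟨D⟩ := exists_dat hf h0 hr
  obtain ⟨r, α, hi, hα⟩ := D.Δ_fin.fin_param
  obtain ⟨N, om, hN, hom⟩ := D.exists_om α hi hα
  have hm := fun i => D.α_mem α hα i
  have hN' : (N : ℤ) ≠ 0 := by exact_mod_cast hN.ne'
  have hL : ∀ d j, Dat.L α d (om j) = N * d j := fun d j => by
    rw [Dat.L_apply, Finset.sum_eq_single j]
    · rw [hom, if_pos rfl, mul_comm]
    · intro i _ hij; rw [hom, if_neg hij, mul_zero]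
    · simp
  have hinj : Function.Injective (Dat.L α) := fun d e h => funext fun j =>
    mul_left_cancel₀ hN' (by rw [← hL, ← hL, h])
  have hall : ∀ c ∈ Φ, ∃ d, Dat.L α d ∈ Nd Φ ∧ ∃ m : ℕ, 0 < m ∧ c = (m : ℤ) • Dat.L α d := fun c hc => by
    obtain ⟨e, he, m, hm0, rfl⟩ := D.exists_nd hc
    obtain ⟨d, -, rfl⟩ := D.gen α hα he
    exact ⟨d, he, m, hm0, rfl⟩
  have hker : ∀ y : Yl, (∀ i, α i y = 0) → y = 0 := fun y hy => by
    refine (hirr y y fun a ha => Or.inl ?_).elim id id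
    obtain ⟨d, -, m, -, rfl⟩ := hall a ha
    simp [Dat.L_apply, hy]
  have hspan : ∀ y : Yl, (N : ℤ) • y = ∑ j, α j y • om j := fun y => by
    refine sub_eq_zero.1 (hker _ fun i => ?_)
    rw [map_sub, map_zsmul, map_sum, Finset.sum_eq_single i]
    · rw [map_zsmul, hom, if_pos rfl, smul_eq_mul, smul_eq_mul, mul_comm, sub_self]
    · intro j _ hj; rw [map_zsmul, hom, if_neg hj.symm, smul_zero]
    · simp
  have hsep : ∀ c : Yl →+ ℤ, (∀ j, c (om j) = 0) → c = 0 := fun c hc => by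
    ext y
    have := congrArg c (hspan y)
    simp only [map_zsmul, map_sum, hc, mul_zero, Finset.sum_const_zero, smul_eq_mul] at this
    exact (mul_eq_zero.1 this).resolve_left hN'
  set R : RS := ⟨r, D.A α, ((hf.subset fun a (ha : a ∈ Nd Φ) => ha.1).preimage hinj.injOn).toFinset⟩
    with hR
  have hmem : ∀ d : Fin r → ℤ, d ∈ R.Φ ↔ Dat.L α d ∈ Nd Φ := fun d => Set.Finite.mem_toFinset _
  have hLα : ∀ i : Fin r, Dat.L α (R.α i) = α i := Dat.L_single α
  have hpr : ∀ (d : Fin r → ℤ) (i : Fin r), R.pr d i = ∑ l, d l * D.N (α l) (α i) := fun d i => rfl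
  have hprN : ∀ (d : Fin r → ℤ) (i : Fin r), Dat.L α d ∈ Φ → R.pr d i = D.N (Dat.L α d) (α i) :=
    fun d i hd => by
    refine mul_right_cancel₀ (hm i).2.1.ne' ?_
    rw [← D.ap_k (hm i).1.1 hd, Dat.L_apply, hpr, Finset.sum_mul]
    exact Finset.sum_congr rfl fun l _ => by rw [D.ap_k (hm i).1.1 (hm l).1.1, mul_assoc]
  have hLs : ∀ (d : Fin r → ℤ) (i : Fin r), Dat.L α (R.s i d) = Dat.L α d - R.pr d i • α i :=
    fun d i => by
    show Dat.L α (d - R.pr d i • R.α i) = _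
    rw [sub_eq_add_neg, Dat.L_add, Dat.L_neg, Dat.L_smul, hLα, sub_eq_add_neg]
  have hrefl : ∀ (i : Fin r), ∀ d ∈ R.Φ, R.s i d ∈ R.Φ := fun i d hd => by
    rw [hmem] at hd ⊢
    rw [hLs, hprN d i hd.1]
    exact D.nd_refl (hm i).1.1 hd
  have hsign : ∀ d ∈ R.Φ, d ≠ 0 ∧ (0 ≤ d ∨ d ≤ 0) := fun d hd => by
    rw [hmem] at hd
    refine ⟨fun e => h0 ?_, ?_⟩
    · have := hd.1
      rwa [e, show Dat.L α 0 = 0 by simp [Dat.L]] at this
    · obtain ⟨d', h', e⟩ := D.gen α hα hd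
      rwa [hinj e]
  have hred : ∀ (i : Fin r) (m : ℤ), m • R.α i ∈ R.Φ → m = 1 ∨ m = -1 := fun i m h => by
    rw [hmem, Dat.L_smul, hLα] at h
    exact D.nd_red (hm i).1 h
  have hs_app : ∀ (i : Fin r) (d : Fin r → ℤ) (j : Fin r), j ≠ i → R.s i d j = d j := fun i d j hj => by
    show d j - R.pr d i • (Pi.single i 1 : Fin r → ℤ) j = d j
    rw [Pi.single_eq_of_ne hj, smul_zero, sub_zero]
  have hs_self : ∀ (i : Fin r) (d : Fin r → ℤ), R.s i d i = d i - R.pr d i := fun i d => by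
    show d i - R.pr d i • (Pi.single i 1 : Fin r → ℤ) i = _
    rw [Pi.single_eq_same, smul_eq_mul, mul_one]
  have hprα : ∀ i : Fin r, R.pr (R.α i) i = 2 := fun i => by
    rw [hprN _ _ (by rw [hLα]; exact (hm i).1.1), hLα, D.two _ (hm i).1.1]
  have hpr_sub : ∀ (d e : Fin r → ℤ) (m : ℤ) (i : Fin r), R.pr (d - m • e) i = R.pr d i - m * R.pr e i :=
    fun d e m i => by
    simp only [hpr, Pi.sub_apply, Pi.smul_apply, smul_eq_mul, sub_mul, Finset.sum_sub_distrib,
      Finset.mul_sum, mul_assoc]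
  have hss : ∀ (i : Fin r) (d : Fin r → ℤ), R.s i (R.s i d) = d := fun i d => by
    show (d - R.pr d i • R.α i) - R.pr (d - R.pr d i • R.α i) i • R.α i = d
    rw [hpr_sub, hprα, sub_smul, mul_two, add_smul]; abel
  have hsneg : ∀ (i : Fin r) (d : Fin r → ℤ), R.s i (-d) = -R.s i d := fun i d => by
    show -d - R.pr (-d) i • R.α i = -(d - R.pr d i • R.α i)
    have : R.pr (-d) i = -R.pr d i := by simp [hpr, Finset.sum_neg_distrib]
    rw [this, neg_smul]; abel
  have hconj0 : ∀ (m : ℕ) (d : Fin r → ℤ), d ∈ R.Φ → 0 ≤ d → (Dat.L α d D.y0).natAbs = m →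
      ∃ (l : List (Fin r)) (i : Fin r), d = l.foldr R.s (R.α i) := fun m => by
    induction m using Nat.strong_induction_on with
    | _ m ih =>
      intro d hd hd0 hh
      have hc := (hmem d).1 hd
      have hnn : ∀ e : Fin r → ℤ, 0 ≤ e → 0 ≤ Dat.L α e D.y0 := fun e he => by
        rw [Dat.L_apply]
        exact Finset.sum_nonneg fun l _ => mul_nonneg (he l) (hm l).2.1.le
      have hpos : 0 < Dat.L α d D.y0 := (hnn d hd0).lt_of_ne (D.reg _ hc.1).symm
      obtain ⟨i, hi0⟩ : ∃ i, 0 < D.N (α i) (Dat.L α d) := by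
        by_contra h
        push Not at h
        have h1 := D.ap_k hc.1 hc.1
        rw [D.two _ hc.1, Dat.L_apply α d (D.k _)] at h1
        have h2 : ∑ l, d l * α l (D.k (Dat.L α d)) ≤ 0 := Finset.sum_nonpos fun l _ => by
          rw [D.ap_k hc.1 (hm l).1.1]
          exact mul_nonpos_of_nonneg_of_nonpos (hd0 l) (mul_nonpos_of_nonpos_of_nonneg (h l) hpos.le)
        linarith
      have hi1 : 0 < R.pr d i := by rw [hprN d i hc.1]; exact D.N_pos hc.1 (hm i).1.1 hi0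
      rcases (hsign _ (hrefl i d hd)).2 with h | h
      · have h1 := hnn _ h
        have h2 : Dat.L α (R.s i d) D.y0 = Dat.L α d D.y0 - R.pr d i * α i D.y0 := by
          rw [hLs]; rfl
        have h3 := mul_pos hi1 (hm i).2.1
        obtain ⟨l, j, e⟩ := ih _ (by omega) _ (hrefl i d hd) h rfl
        exact ⟨i :: l, j, by rw [List.foldr_cons, ← e, hss]⟩
      · have h1 : d = d i • R.α i := funext fun j => by
          show d j = d i • (Pi.single i 1 : Fin r → ℤ) j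
          by_cases hj : j = i
          · rw [hj, Pi.single_eq_same, smul_eq_mul, mul_one]
          · rw [Pi.single_eq_of_ne hj, smul_zero]
            exact le_antisymm (hs_app i d j hj ▸ h j) (hd0 j)
        rcases hred i (d i) (h1 ▸ hd) with e | e
        · exact ⟨[], i, by rw [h1, e, one_smul]; rfl⟩
        · have := hd0 i
          rw [e] at this
          exact absurd this (by norm_num)
  have hconj : ∀ d ∈ R.Φ, ∃ (l : List (Fin r)) (i : Fin r), d = l.foldr R.s (R.α i) := fun d hd => by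
    rcases (hsign d hd).2 with h | h
    · exact hconj0 _ d hd h rfl
    · obtain ⟨l, i, e⟩ := hconj0 _ (-d) (by
        rw [hmem] at hd ⊢; rw [Dat.L_neg]; exact D.nd_neg hd) (neg_nonneg.2 h) rfl
      have h1 : ∀ (l : List (Fin r)) (e : Fin r → ℤ), l.foldr R.s (-e) = -l.foldr R.s e := fun l e => by
        induction l with
        | nil => rfl
        | cons j l ih => rw [List.foldr_cons, List.foldr_cons, ih, hsneg]
      have h2 : R.s i (R.α i) = -R.α i := by
        show R.α i - R.pr (R.α i) i • R.α i = _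
        rw [hprα, two_smul]; abel
      refine ⟨l ++ [i], i, ?_⟩
      rw [List.foldr_append, List.foldr_cons, List.foldr_nil, h2, h1, ← e, neg_neg]
  have hne : ∀ i, om i ≠ 0 := fun i e => hN' (by have := hom i i; rwa [e, map_zero, if_pos rfl, eq_comm] at this)
  refine ⟨R, N, om, hN, ⟨?_, fun i => D.two _ (hm i).1.1, fun i => (hmem _).2 (by rw [hLα]; exact (hm i).1),
    hrefl, hsign, hred, hconj, D.det_ne α hi hα, fun P i j hP hcl => ?_⟩, hsep, fun c hc => ?_,
    fun d hd => ⟨_, ((hmem d).1 hd).1, funext fun j => by rw [hL]; simp⟩, fun i σ h h1 h2 b => ?_,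
    fun y => ⟨fun j => α j y, by rw [← hspan, natCast_zsmul]⟩⟩
  · rcases Nat.eq_zero_or_pos r with e | e
    · subst e
      exact (hY ((AddSubgroup.eq_bot_iff_forall _).2 fun y hy =>
        congrArg Subtype.val (hker ⟨y, hy⟩ fun i => i.elim0))).elim
    · exact e
  · by_contra hj
    have hz : ∀ l l' : Fin r, P l → ¬P l' → D.N (α l') (α l) = 0 := fun l l' hl hl' => by
      by_contra e
      exact hl' (hcl l l' hl e)
    have hsup : ∀ (l : List (Fin r)) (q : Fin r), (∀ p, ¬P p → l.foldr R.s (R.α q) p = 0) ∨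
        ∀ p, P p → l.foldr R.s (R.α q) p = 0 := fun l q => by
      induction l with
      | nil =>
        by_cases hq : P q
        · exact Or.inl fun p hp => Pi.single_eq_of_ne (by rintro rfl; exact hp hq) _
        · exact Or.inr fun p hp => Pi.single_eq_of_ne (by rintro rfl; exact hq hp) _
      | cons t l ih =>
        rw [List.foldr_cons]
        generalize l.foldr R.s (R.α q) = e at ih
        rcases ih with h | h
        · refine Or.inl fun p hp => ?_
          by_cases hpt : p = t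
          · subst hpt
            rw [hs_self, h p hp, hpr, Finset.sum_eq_zero, sub_zero]
            intro l _
            by_cases hl : P l
            · rw [D.N_zero (hm l).1.1 (hm p).1.1 (hz l p hl hp), mul_zero]
            · rw [h l hl, zero_mul]
          · rw [hs_app t e p hpt, h p hp]
        · refine Or.inr fun p hp => ?_
          by_cases hpt : p = t
          · subst hpt
            rw [hs_self, h p hp, hpr, Finset.sum_eq_zero, sub_zero]
            intro l _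
            by_cases hl : P l
            · rw [h l hl, zero_mul]
            · rw [hz p l hp hl, mul_zero]
          · rw [hs_app t e p hpt, h p hp]
    refine (hirr (om i) (om j) fun a ha => ?_).elim (hne i) (hne j)
    obtain ⟨d, hd, m, -, rfl⟩ := hall a ha
    obtain ⟨l, q, rfl⟩ := hconj d ((hmem d).2 hd)
    simp only [AddMonoidHom.smul_apply, hL]
    rcases hsup l q with h | h
    · exact Or.inr (by rw [h j hj]; simp)
    · exact Or.inl (by rw [h i hP]; simp)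
  · obtain ⟨d, hd, m, hm0, rfl⟩ := hall c hc
    refine ⟨d, (hmem d).2 hd, m, hm0, funext fun j => ?_⟩
    simp only [AddMonoidHom.smul_apply, hL, Pi.smul_apply, smul_eq_mul, nsmul_eq_mul]
    push_cast; ring
  · have hαi : (fun j => α i (om j)) = N • R.α i := funext fun j => by
      rw [← hLα, hL]; simp
    have huniq : ∀ a : Yl →+ ℤ, (fun j => a (om j)) = N • R.α i → a = α i := fun a ha =>
      sub_eq_zero.1 (hsep _ fun j => by
        rw [AddMonoidHom.sub_apply, congrFun ha j, congrFun hαi j, sub_self])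
    have h1' : ∀ y : Yl, α i y = 0 → y.1 ∘ σ = y.1 := fun y hy => h1 y fun a _ ha => by
      rw [huniq a ha, hy]
    have h2' := h2 _ (hm i).1.1 hαi
    have ha := (hm i).1.1
    have hw : (⟨(om i).1 ∘ σ, h _ (om i).2⟩ : Yl) = D.s (α i) (om i) := by
      set w : Yl := ⟨(om i).1 ∘ σ, h _ (om i).2⟩ - D.s (α i) (om i) with hw
      have w0 : α i w = 0 := by
        rw [hw, map_sub, h2', D.hN _ ha _ ha, D.two _ ha]; ring
      have w1 : ((om i).1 ∘ σ) ⬝ᵥ w.1 = (om i).1 ⬝ᵥ w.1 := by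
        conv_lhs => rw [← h1' w w0]
        exact comp_equiv_dotProduct_comp_equiv _ _ σ
      have w2 : (D.s (α i) (om i)).1 ⬝ᵥ w.1 = (om i).1 ⬝ᵥ w.1 := by
        rw [← D.orth _ ha (om i) w, D.hs _ ha w, w0, zero_smul, sub_zero]
      have w3 : w.1 ⬝ᵥ w.1 = 0 := by
        conv_lhs => lhs; rw [hw, AddSubgroup.coe_sub]
        rw [sub_dotProduct, w2]; exact sub_eq_zero.2 w1
      exact sub_eq_zero.1 (Subtype.ext (dotProduct_self_eq_zero.1 w3))
    have hs : D.s (α i) (om i) = om i - ∑ l, D.N (α l) (α i) • om l := by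
      refine sub_eq_zero.1 (hker _ fun p => ?_)
      rw [map_sub, map_sub, D.hN _ ha _ (hm p).1.1, map_sum, Finset.sum_eq_single p]
      · rw [map_zsmul, hom i i, hom p p, if_pos rfl, if_pos rfl, smul_eq_mul, sub_self]
      · intro l _ hl; rw [map_zsmul, hom, if_neg hl.symm, smul_zero]
      · simp
    funext j
    by_cases hj : j = i
    · subst hj
      rw [hs_self, hpr]
      have := congrFun (congrArg Subtype.val (hw.trans hs)) b
      simp only [Function.comp_apply, AddSubgroup.coe_sub, AddSubgroup.val_finset_sum, Pi.sub_apply,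
        Finset.sum_apply, AddSubgroup.coe_zsmul, Pi.smul_apply, smul_eq_mul] at this
      rw [this]
      exact congrArg _ (Finset.sum_congr rfl fun l _ => mul_comm _ _)
    · rw [hs_app i _ j hj]
      exact congrFun (h1' (om j) (by rw [hom, if_neg (Ne.symm hj)])) b

end Vale.Agent.P092RT
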